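import Vale.Agent.P298.H845.Poly
import Vale.Agent.P298.H863.Eigen4

/-! P298, block S1-GEO-R4 (helper845), final statements: `H⁰(X, O(k))` of a smooth hypersurface
`X = {G = 0}` in `P^(m+2)` (cone language), in the form of helper863's `PolyP`. -/

set_option linter.all false

open Filter Topology Metric Set

noncomputable section

namespace Vale.Agent.P298.H845

open Vale.Agent.P298.H863

variable {m d : ℕ} {G : (Fin (m + 3) → ℂ) → ℂ}

/-- the local analysis behind all final statements -/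
theorem core (hG : Differentiable ℂ G) (hhom : ∀ (c : ℂ) z, G (c • z) = c ^ d * G z)
    (hmon : G (Pi.single (Fin.last (m + 2)) 1) ≠ 0)
    (hreg : ∀ z, z ≠ 0 → G z = 0 → fderiv ℂ G z ≠ 0) :
    ∃ a : Fin d → (Fin (m + 2) → ℂ) → ℂ, (∀ j, Differentiable ℂ (a j)) ∧
      (∀ (j : Fin d) (t : ℂ) x, a j (t • x) = t ^ (d - (j : ℕ)) * a j x) ∧
      (∀ x z, G (Fin.snoc x z) = 0 ↔ GF a (x, z) = 0) ∧
      (∀ x, x ≠ 0 → ∀ ζ, GF a (x, ζ) = 0 → fderiv ℂ (GF a) (x, ζ) ≠ 0) ∧
      (∀ z ∈ Kc G, (fun i : Fin (m + 2) => z i.castSucc) ≠ 0) := by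
  obtain ⟨a, ha, hah, haG⟩ := exists_monic hG hhom hmon
  have hiff : ∀ x z, G (Fin.snoc x z) = 0 ↔ GF a (x, z) = 0 := by
    intro x z
    rw [haG, mul_eq_zero, or_iff_right hmon]
  refine ⟨a, ha, hah, hiff, ?_, ?_⟩
  · intro x hx ζ h0 hf
    have hz0 : snL (m + 2) (x, ζ) ≠ 0 := by
      intro h1
      apply hx
      have := (map_eq_zero_iff (snL (m + 2)) (snL (m + 2)).injective).1 h1
      exact congrArg Prod.fst this
    have hGz : G (snL (m + 2) (x, ζ)) = 0 := (hiff x ζ).2 h0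
    apply hreg _ hz0 hGz
    have hGF : ∀ p : (Fin (m + 2) → ℂ) × ℂ, G (snL (m + 2) p) =
        G (Pi.single (Fin.last (m + 2)) 1) * GF a p := fun p => haG p.1 p.2
    have hGFd : DifferentiableAt ℂ (GF a) (x, ζ) :=
      (GF_diff (U := univ) (fun j => (ha j).differentiableOn) univ).differentiableAt
        (by rw [univ_prod_univ]; exact univ_mem)
    have h2 : HasFDerivAt (fun p => G (snL (m + 2) p))
        ((fderiv ℂ G (snL (m + 2) (x, ζ))).comp (snL (m + 2) : _ →L[ℂ] _)) (x, ζ) :=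
      (hG _).hasFDerivAt.comp (x, ζ) (snL (m + 2)).hasFDerivAt
    have h3 : HasFDerivAt (fun p => G (snL (m + 2) p))
        (G (Pi.single (Fin.last (m + 2)) 1) • fderiv ℂ (GF a) (x, ζ)) (x, ζ) := by
      have := hGFd.hasFDerivAt.const_mul (G (Pi.single (Fin.last (m + 2)) 1))
      exact this.congr_of_eventuallyEq (Eventually.of_forall hGF)
    have h4 := h2.unique h3
    ext v
    have := DFunLike.congr_fun h4 ((snL (m + 2)).symm v)
    simpa [hf] using this
  · rintro z ⟨hz, hGz⟩ h0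
    apply hz
    have h1 : z = Fin.snoc (fun i : Fin (m + 2) => z i.castSucc) (z (Fin.last (m + 2))) :=
      (snL (m + 2)).right_inv z |>.symm
    rw [h0] at h1
    have h2 : GF a (0, z (Fin.last (m + 2))) = 0 := by
      rw [← hiff, ← h1]; exact hGz
    rw [GF_apply] at h2
    have h3 : ∑ j : Fin d, a j 0 * z (Fin.last (m + 2)) ^ (j : ℕ) = 0 := by
      refine Finset.sum_eq_zero fun j _ => ?_
      have := hah j 0 0
      rw [smul_zero, zero_pow (by have := j.2; omega), zero_mul] at this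
      rw [this, zero_mul]
    have h4 : z (Fin.last (m + 2)) = 0 := by
      simp only at h2
      rw [h3, add_zero] at h2
      by_contra hne
      exact pow_ne_zero d hne h2
    rw [h1, h4]
    funext i
    refine Fin.lastCases ?_ (fun j => ?_) i <;> simp

/-- local extendability in product coordinates -/
theorem lext_of_locAn {a : Fin d → (Fin (m + 2) → ℂ) → ℂ}
    (hiff : ∀ x z, G (Fin.snoc x z) = 0 ↔ GF a (x, z) = 0)
    {h : (Fin (m + 3) → ℂ) → ℂ} (hloc : LocAn (Kc G) h) :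
    ∀ x, x ≠ 0 → ∀ ζ, GF a (x, ζ) = 0 →
      ∃ H, LExt (GF a) (fun p => h (snL (m + 2) p)) (x, ζ) H := by
  intro x hx ζ h0
  have hz0 : snL (m + 2) (x, ζ) ≠ 0 := by
    intro h1
    apply hx
    have := (map_eq_zero_iff (snL (m + 2)) (snL (m + 2)).injective).1 h1
    exact congrArg Prod.fst this
  have hGz : G (snL (m + 2) (x, ζ)) = 0 := (hiff x ζ).2 h0
  obtain ⟨F, hF, hFe⟩ := hloc _ ⟨hz0, hGz⟩
  refine ⟨fun p => F (snL (m + 2) p), ?_, ?_⟩
  · exact hF.comp ((snL (m + 2)).analyticAt (x, ζ))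
  · have ht : Tendsto (snL (m + 2)) (𝓝 (x, ζ)) (𝓝 (snL (m + 2) (x, ζ))) :=
      (snL (m + 2)).continuous.tendsto _
    have hne : ∀ᶠ z in 𝓝 (snL (m + 2) (x, ζ)), z ≠ 0 := isOpen_compl_singleton.mem_nhds hz0
    filter_upwards [ht.eventually hFe, ht.eventually hne] with p h1 h2 h3
    exact (h1 ⟨h2, (hiff p.1 p.2).2 h3⟩).symm

/-- **R4, integer degrees.** -/
theorem poly_zpow (hG : Differentiable ℂ G) (hhom : ∀ (c : ℂ) z, G (c • z) = c ^ d * G z)
    (hmon : G (Pi.single (Fin.last (m + 2)) 1) ≠ 0)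
    (hreg : ∀ z, z ≠ 0 → G z = 0 → fderiv ℂ G z ≠ 0)
    {h : (Fin (m + 3) → ℂ) → ℂ} (hloc : LocAn (Kc G) h) {k : ℤ}
    (hh : ∀ c : ℂ, c ≠ 0 → ∀ z ∈ Kc G, h (c • z) = c ^ k * h z) :
    ∃ P : Fin d → MvPolynomial (Fin (m + 2)) ℂ,
      (∀ l : Fin d, 0 ≤ k - (l : ℕ) → (P l).IsHomogeneous (k - (l : ℕ)).toNat) ∧
      (∀ l : Fin d, k - (l : ℕ) < 0 → P l = 0) ∧
      ∀ z ∈ Kc G, h z = MvPolynomial.eval z (∑ l : Fin d, MvPolynomial.rename Fin.castSucc (P l) *
        MvPolynomial.X (Fin.last (m + 2)) ^ (l : ℕ)) := by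
  obtain ⟨a, ha, hah, hiff, hregF, hne⟩ := core hG hhom hmon hreg
  obtain ⟨P, hP1, hP2, hP3, hP4⟩ := poly_cone ha hah hregF (lext_of_locAn hiff hloc) (k := k) (by
    intro t ht x hx ζ h0
    show h (snL (m + 2) (t • x, t * ζ)) = _
    rw [snL_smul]
    refine hh t ht _ ⟨?_, (hiff x ζ).2 h0⟩
    intro h1
    apply hx
    have := (map_eq_zero_iff (snL (m + 2)) (snL (m + 2)).injective).1 h1
    exact congrArg Prod.fst this)
  refine ⟨P, hP1, hP2, fun z hz => ?_⟩
  have h1 : (Fin.snoc (fun i : Fin (m + 2) => z i.castSucc) (z (Fin.last (m + 2))) :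
      Fin (m + 3) → ℂ) = z := (snL (m + 2)).right_inv z
  have h2 := hP4 _ (hne z hz) (z (Fin.last (m + 2))) (by rw [← hiff, h1]; exact hz.2)
  have h3 : snL (m + 2) ((fun i : Fin (m + 2) => z i.castSucc), z (Fin.last (m + 2))) = z := h1
  simp only [h3] at h2
  rw [h2, ← eval_split P, h1]

/-- **R4 (POLY).** `G` entire, homogeneous of degree `d`, with nonzero coefficient of
`(last variable) ^ d` and smooth zero set off the origin. A function `h` on the punctured cone
`{G = 0} \ {0}` which is locally the restriction of analytic functions and homogeneous of degree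
`k ≥ 0` is the restriction of a homogeneous polynomial `A` of degree `k`, whose degree in the last
variable is `< d`. -/
theorem polyP (hG : Differentiable ℂ G) (hhom : ∀ (c : ℂ) z, G (c • z) = c ^ d * G z)
    (hmon : G (Pi.single (Fin.last (m + 2)) 1) ≠ 0)
    (hreg : ∀ z, z ≠ 0 → G z = 0 → fderiv ℂ G z ≠ 0) :
    PolyP (Kc G) (fun _ A => ∀ s ∈ A.support, s (Fin.last (m + 2)) < d) := by
  intro k h hloc hh
  obtain ⟨P, hP1, hP2, hP3⟩ := poly_zpow hG hhom hmon hreg hloc (k := (k : ℤ)) (by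
    intro c hc z hz
    rw [zpow_natCast]
    exact hh c hc z hz)
  refine ⟨_, homog_split (P := P) (k := k) ?_ ?_, exp_lt P, hP3⟩
  · intro l hl
    have h1 := hP1 l (by omega)
    have h2 : ((k : ℤ) - (l : ℕ)).toNat = k - (l : ℕ) := by omega
    rwa [h2] at h1
  · intro l hl
    exact hP2 l (by omega)

/-- **R4, negative degrees**: no sections of `O(k)` for `k < 0`. -/
theorem eq_zero_of_neg (hG : Differentiable ℂ G) (hhom : ∀ (c : ℂ) z, G (c • z) = c ^ d * G z)
    (hmon : G (Pi.single (Fin.last (m + 2)) 1) ≠ 0)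
    (hreg : ∀ z, z ≠ 0 → G z = 0 → fderiv ℂ G z ≠ 0)
    {h : (Fin (m + 3) → ℂ) → ℂ} (hloc : LocAn (Kc G) h) {k : ℤ} (hk : k < 0)
    (hh : ∀ c : ℂ, c ≠ 0 → ∀ z ∈ Kc G, h (c • z) = c ^ k * h z) : ∀ z ∈ Kc G, h z = 0 := by
  obtain ⟨P, hP1, hP2, hP3⟩ := poly_zpow hG hhom hmon hreg hloc hh
  intro z hz
  rw [hP3 z hz]
  have : ∀ l : Fin d, P l = 0 := fun l => hP2 l (by omega)
  simp [this]

/-- **R4, degree zero**: global functions are constant (the hypersurface is connected). -/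
theorem eq_const_of_zero (hG : Differentiable ℂ G) (hhom : ∀ (c : ℂ) z, G (c • z) = c ^ d * G z)
    (hmon : G (Pi.single (Fin.last (m + 2)) 1) ≠ 0)
    (hreg : ∀ z, z ≠ 0 → G z = 0 → fderiv ℂ G z ≠ 0)
    {h : (Fin (m + 3) → ℂ) → ℂ} (hloc : LocAn (Kc G) h)
    (hh : ∀ c : ℂ, c ≠ 0 → ∀ z ∈ Kc G, h (c • z) = h z) :
    ∃ c0, ∀ z ∈ Kc G, h z = c0 := by
  obtain ⟨A, hA, -, hAe⟩ := polyP hG hhom hmon hreg 0 h hloc (by simpa using hh)
  refine ⟨MvPolynomial.eval 0 A, fun z hz => ?_⟩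
  rw [hAe z hz]
  have := eval_smul_homog hA 0 z
  rw [zero_smul, pow_zero, one_mul] at this
  exact this.symm

/-- **R4, uniqueness of the normal form**: two polynomials of degree `< d` in the last variable
that agree on the punctured cone are equal. -/
theorem normal_unique (hG : Differentiable ℂ G) (hhom : ∀ (c : ℂ) z, G (c • z) = c ^ d * G z)
    (hmon : G (Pi.single (Fin.last (m + 2)) 1) ≠ 0)
    (hreg : ∀ z, z ≠ 0 → G z = 0 → fderiv ℂ G z ≠ 0) {A A' : MvPolynomial (Fin (m + 3)) ℂ}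
    (hA : ∀ s ∈ A.support, s (Fin.last (m + 2)) < d)
    (hA' : ∀ s ∈ A'.support, s (Fin.last (m + 2)) < d)
    (hAA : ∀ z ∈ Kc G, MvPolynomial.eval z A = MvPolynomial.eval z A') : A = A' := by
  obtain ⟨a, ha, hah, hiff, hregF, hne⟩ := core hG hhom hmon hreg
  have h1 := sum_part hA
  have h2 := sum_part hA'
  have h3 : (fun l : Fin d => part A (l : ℕ)) = fun l : Fin d => part A' (l : ℕ) := by
    refine poly_cone_unique ha hregF fun x hx ζ h0 => ?_
    have hz : (Fin.snoc x ζ : Fin (m + 3) → ℂ) ∈ Kc G := by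
      refine ⟨fun h1 => hx ?_, (hiff x ζ).2 h0⟩
      have h4 : snL (m + 2) (x, ζ) = 0 := h1
      have := (map_eq_zero_iff (snL (m + 2)) (snL (m + 2)).injective).1 h4
      exact congrArg Prod.fst this
    have h5 := hAA _ hz
    rw [h1, h2, eval_split, eval_split] at h5
    exact h5
  rw [h1, h2]
  refine Finset.sum_congr rfl fun l _ => ?_
  rw [show part A (l : ℕ) = part A' (l : ℕ) from congrFun h3 l]

/-- division: every homogeneous polynomial has a normal form on the punctured cone. -/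
theorem exists_normal (hG : Differentiable ℂ G) (hhom : ∀ (c : ℂ) z, G (c • z) = c ^ d * G z)
    (hmon : G (Pi.single (Fin.last (m + 2)) 1) ≠ 0)
    (hreg : ∀ z, z ≠ 0 → G z = 0 → fderiv ℂ G z ≠ 0) {k : ℕ}
    {B : MvPolynomial (Fin (m + 3)) ℂ} (hB : B.IsHomogeneous k) :
    ∃ A : MvPolynomial (Fin (m + 3)) ℂ, A.IsHomogeneous k ∧
      (∀ s ∈ A.support, s (Fin.last (m + 2)) < d) ∧
      ∀ z ∈ Kc G, MvPolynomial.eval z B = MvPolynomial.eval z A := by
  refine polyP hG hhom hmon hreg k (fun z => MvPolynomial.eval z B) ?_ ?_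
  · intro p _
    exact ⟨_, Vale.Agent.P268.analyticAt_of_differentiableOn isOpen_univ
      (differentiable_eval B).differentiableOn (mem_univ p), Eventually.of_forall fun _ _ => rfl⟩
  · intro c _ z _
    exact eval_smul_homog hB c z

end Vale.Agent.P298.H845
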